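import Vale.Agent.P181.SZT0.Tr

set_option autoImplicit false

/-!
# P181, HO (HO1): the letters of a symmetric polynomial in the columns

`hat f` = the sum of `coeff_v f` times the product of the letters `X (column j of v)`, and `0` if
some column is empty. Multiplicative on products in disjoint columns, invariant, and for a
symmetric `f` it is zero only if `f` has no monomial in which all columns occur.
-/

open MvPolynomial

namespace Vale.Agent.P181.HO.H694

open Vale.Agent.P181.SZT0 (rc rc_inj inj_pr coeff_rc rc_mem_HW exists_equiv)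

variable {m : ℕ} {α β γ : Type}

/-- The column `j` of an exponent. -/
def colv (v : Fin m × α →₀ ℕ) (j : α) : Fin m → ℕ := fun i => v (i, j)

open scoped Classical in
/-- The letter of a column, `0` for the empty column. -/
noncomputable def let0 (c : Fin m → ℕ) : MvPolynomial (Fin m → ℕ) ℂ := if c = 0 then 0 else X c

lemma let0_ne {c : Fin m → ℕ} (h : c ≠ 0) : let0 c = X c := if_neg h

lemma let0_zero : let0 (0 : Fin m → ℕ) = 0 := if_pos rfl

/-- The letters of a polynomial in columns. -/
noncomputable def hat (m : ℕ) (α : Type) [Fintype α] :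
    MvPolynomial (Fin m × α) ℂ →ₗ[ℂ] MvPolynomial (Fin m → ℕ) ℂ :=
  (basisMonomials (Fin m × α) ℂ).constr ℂ fun v => ∏ j, let0 (colv v j)

section

variable [Fintype α] [Fintype β] [Fintype γ]

lemma hat_monomial (v : Fin m × α →₀ ℕ) : hat m α (monomial v 1) = ∏ j, let0 (colv v j) := by
  have h := (basisMonomials (Fin m × α) ℂ).constr_basis ℂ
    (fun v : Fin m × α →₀ ℕ => ∏ j, let0 (colv v j)) v
  rw [coe_basisMonomials] at h
  exact h

lemma hat_eq (f : MvPolynomial (Fin m × α) ℂ) :
    hat m α f = ∑ v ∈ f.support, C (coeff v f) * ∏ j, let0 (colv v j) := by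
  conv_lhs => rw [f.as_sum, map_sum]
  apply Finset.sum_congr rfl
  intro v _
  have h : monomial v (coeff v f) = coeff v f • monomial v (1 : ℂ) := by
    rw [smul_monomial, smul_eq_mul, mul_one]
  rw [h, map_smul, hat_monomial, smul_eq_C_mul]

omit [Fintype α] [Fintype β] in
lemma colv_map {ι : α → β} (hι : Function.Injective ι) (u : Fin m × α →₀ ℕ) (j : α) :
    colv (Finsupp.mapDomain (fun p : Fin m × α => (p.1, ι p.2)) u) (ι j) = colv u j := by
  funext i
  exact Finsupp.mapDomain_apply (inj_pr hι) u (i, j)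

omit [Fintype α] [Fintype β] in
lemma colv_map' {ι : α → β} (u : Fin m × α →₀ ℕ) {j : β} (hj : j ∉ Set.range ι) :
    colv (Finsupp.mapDomain (fun p : Fin m × α => (p.1, ι p.2)) u) j = 0 := by
  funext i
  apply Finsupp.mapDomain_of_notMem_range
  rintro ⟨⟨a, b⟩, hab⟩
  exact hj ⟨b, congrArg Prod.snd hab⟩

omit [Fintype α] in
lemma colv_add (u v : Fin m × α →₀ ℕ) (j : α) : colv (u + v) j = colv u j + colv v j := rfl

/-- invariance under the permutations of the columns -/
lemma hat_rc (e : α ≃ β) (f : MvPolynomial (Fin m × α) ℂ) :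
    hat m β (rc m e f) = hat m α f := by
  have h : (hat m β) ∘ₗ (rc m e).toLinearMap = hat m α := by
    apply (basisMonomials (Fin m × α) ℂ).ext
    intro u
    rw [coe_basisMonomials, LinearMap.comp_apply]
    change hat m β (rc m e (monomial u 1)) = hat m α (monomial u 1)
    rw [rc, rename_monomial, hat_monomial, hat_monomial]
    rw [← Equiv.prod_comp e]
    exact Finset.prod_congr rfl fun j _ => by rw [colv_map e.injective]
  exact congrArg (fun L => L f) h

/-- products in disjoint columns -/
lemma hat_mul (e : α ⊕ β ≃ γ) (f : MvPolynomial (Fin m × α) ℂ) (g : MvPolynomial (Fin m × β) ℂ) :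
    hat m γ (rc m (fun a => e (Sum.inl a)) f * rc m (fun b => e (Sum.inr b)) g) =
      hat m α f * hat m β g := by
  have hl : Function.Injective fun a => e (Sum.inl a) := e.injective.comp Sum.inl_injective
  have hr : Function.Injective fun b => e (Sum.inr b) := e.injective.comp Sum.inr_injective
  have key : ∀ (u : Fin m × α →₀ ℕ) (v : Fin m × β →₀ ℕ),
      hat m γ (rc m (fun a => e (Sum.inl a)) (monomial u 1) *
        rc m (fun b => e (Sum.inr b)) (monomial v 1)) =
      hat m α (monomial u 1) * hat m β (monomial v 1) := by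
    intro u v
    rw [rc, rc, rename_monomial, rename_monomial, monomial_mul, one_mul, hat_monomial,
      hat_monomial, hat_monomial, ← Equiv.prod_comp e, Fintype.prod_sum_type]
    congr 1
    · apply Finset.prod_congr rfl
      intro a _
      rw [colv_add, colv_map hl, colv_map' (ι := fun b => e (Sum.inr b)) v, add_zero]
      rintro ⟨b, hb⟩
      exact absurd (e.injective hb) (by simp)
    · apply Finset.prod_congr rfl
      intro b _
      rw [colv_add, colv_map hr, colv_map' (ι := fun a => e (Sum.inl a)) u, zero_add]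
      rintro ⟨a, ha⟩
      exact absurd (e.injective ha) (by simp)
  have h : ((LinearMap.mul ℂ (MvPolynomial (Fin m × γ) ℂ)).compl₁₂
        (rc m (fun a => e (Sum.inl a))).toLinearMap
        (rc m (fun b => e (Sum.inr b))).toLinearMap).compr₂ (hat m γ) =
      (LinearMap.mul ℂ (MvPolynomial (Fin m → ℕ) ℂ)).compl₁₂ (hat m α) (hat m β) := by
    apply (basisMonomials (Fin m × α) ℂ).ext
    intro u
    apply (basisMonomials (Fin m × β) ℂ).ext
    intro v
    rw [coe_basisMonomials, coe_basisMonomials]
    exact key u v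
  exact congrArg (fun L => L f g) h

/-- the monomial of the letters -/
noncomputable def mon (v : Fin m × α →₀ ℕ) : (Fin m → ℕ) →₀ ℕ :=
  ∑ j, Finsupp.single (colv v j) 1

lemma prod_let0 {v : Fin m × α →₀ ℕ} (hv : ∀ j, colv v j ≠ 0) :
    ∏ j, let0 (colv v j) = monomial (mon v) 1 := by
  rw [mon, monomial_sum_one]
  exact Finset.prod_congr rfl fun j _ => let0_ne (hv j)

lemma exists_perm {u v : Fin m × α →₀ ℕ} (h : mon u = mon v) :
    ∃ e : Equiv.Perm α, ∀ j, colv v (e j) = colv u j := by
  classical
  have hc : ∀ c : Fin m → ℕ, Nonempty ({j // colv u j = c} ≃ {j // colv v j = c}) := by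
    intro c
    refine ⟨Fintype.equivOfCardEq ?_⟩
    have h1 : ∀ w : Fin m × α →₀ ℕ, mon w c = Fintype.card {j // colv w j = c} := by
      intro w
      rw [mon, Finsupp.finsetSum_apply, Fintype.card_subtype, Finset.card_filter]
      exact Finset.sum_congr rfl fun j _ => Finsupp.single_apply
    rw [← h1, ← h1, h]
  let φ : ∀ c, {j // colv u j = c} ≃ {j // colv v j = c} := fun c => (hc c).some
  let e : α ≃ α := (Equiv.sigmaFiberEquiv (colv u)).symm.trans
    ((Equiv.sigmaCongrRight φ).trans (Equiv.sigmaFiberEquiv (colv v)))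
  refine ⟨e, fun j => ?_⟩
  exact (φ (colv u j) ⟨j, rfl⟩).2

/-- the coefficients of a symmetric polynomial -/
lemma coeff_perm {f : MvPolynomial (Fin m × α) ℂ} (e : Equiv.Perm α) (hf : rc m e f = f)
    {u v : Fin m × α →₀ ℕ} (h : ∀ j, colv v (e j) = colv u j) : coeff u f = coeff v f := by
  have h1 := coeff_rename_mapDomain _ (inj_pr e.injective) f u
  have h2 : Finsupp.mapDomain (fun p : Fin m × α => (p.1, e p.2)) u = v := by
    ext ⟨i, j⟩
    obtain ⟨j, rfl⟩ := e.surjective j
    exact (congrFun (colv_map e.injective u j) i).trans (congrFun (h j) i).symm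
  rw [rc] at hf
  rw [hf, h2] at h1
  exact h1.symm

/-- **A symmetric polynomial with a full monomial has letters.** -/
theorem hat_ne {f : MvPolynomial (Fin m × α) ℂ} (hf : ∀ e : Equiv.Perm α, rc m e f = f)
    {v : Fin m × α →₀ ℕ} (hv : coeff v f ≠ 0) (hfull : ∀ j, colv v j ≠ 0) : hat m α f ≠ 0 := by
  classical
  intro h0
  have h1 : coeff (mon v) (hat m α f) =
      ∑ u ∈ f.support, if (∀ j, colv u j ≠ 0) ∧ mon u = mon v then coeff v f else 0 := by
    rw [hat_eq, coeff_sum]
    apply Finset.sum_congr rfl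
    intro u _
    rw [coeff_C_mul]
    split_ifs with h
    · obtain ⟨e, he⟩ := exists_perm h.2
      rw [prod_let0 h.1, coeff_monomial, if_pos h.2, mul_one]
      exact coeff_perm e (hf e) he
    · by_cases h2 : ∀ j, colv u j ≠ 0
      · rw [prod_let0 h2, coeff_monomial, if_neg (fun h3 => h ⟨h2, h3⟩), mul_zero]
      · push Not at h2
        obtain ⟨j, hj⟩ := h2
        rw [Finset.prod_eq_zero (Finset.mem_univ j) (by rw [hj, let0_zero]), coeff_zero,
          mul_zero]
  rw [h0, coeff_zero, ← Finset.sum_filter, Finset.sum_const, nsmul_eq_mul] at h1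
  have h2 : v ∈ f.support.filter fun u => (∀ j, colv u j ≠ 0) ∧ mon u = mon v :=
    Finset.mem_filter.2 ⟨mem_support_iff.2 hv, hfull, rfl⟩
  rcases mul_eq_zero.1 h1.symm with h3 | h3
  · rw [Nat.cast_eq_zero, Finset.card_eq_zero] at h3
    rw [h3] at h2
    exact absurd h2 (Finset.notMem_empty _)
  · exact hv h3

/-- **A polynomial with letters has a full monomial.** -/
theorem exists_full {f : MvPolynomial (Fin m × α) ℂ} (h : hat m α f ≠ 0) :
    ∃ v, coeff v f ≠ 0 ∧ ∀ j, colv v j ≠ 0 := by
  by_contra hno
  push Not at hno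
  apply h
  rw [hat_eq]
  apply Finset.sum_eq_zero
  intro v hv
  obtain ⟨j, hj⟩ := hno v (mem_support_iff.1 hv)
  rw [Finset.prod_eq_zero (Finset.mem_univ j) (by rw [hj, let0_zero]), mul_zero]

end

end Vale.Agent.P181.HO.H694
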