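import Vale.Agent.P181.HO.H694.Hat
import Vale.Agent.P181.HO.Defs
import Vale.Agent.P181.DGx.H831.Ker
import Vale.Agent.P181.DG4.H237.Rank

set_option autoImplicit false

/-!
# P181, HO (HO1): exterior multiplication by a vacuum block
-/

open MvPolynomial

namespace Vale.Agent.P181.HO.H694

open Vale.Agent.P181.T4 (HW rowOp rowOp_apply mem_HW)
open Vale.Agent.P181.SZT0 (rc rc_inj inj_pr coeff_rc rc_mem_HW exists_equiv)
open Vale.Agent.P181.DG
open Vale.Agent.P181.DG.H514 (KerT KerStmt)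
open Vale.Agent.P181.DGx.H831 (mem_PKT pderiv_rc finiteDimensional_PKT transT kerStmt)
open Vale.Agent.P181.DG4.H237 (rank_le kerT_le)

variable {m : ℕ} {α β γ : Type}

lemma pderiv_rc_out {ι : α → β} (i : Fin m) {j : β} (hj : j ∉ Set.range ι)
    (f : MvPolynomial (Fin m × α) ℂ) : pderiv (i, j) (rc m ι f) = 0 := by
  classical
  apply pderiv_eq_zero_of_notMem_vars
  intro h7
  have h8 := vars_rename (fun p : Fin m × α => (p.1, ι p.2)) f h7
  rw [Finset.mem_image] at h8
  obtain ⟨⟨a, b⟩, _, hab⟩ := h8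
  exact hj ⟨b, congrArg Prod.snd hab⟩

variable [Fintype α] [Fintype β] [Fintype γ]

/-- Highest weight, degree `< S` in every column, translation invariant. -/
def Q (m S : ℕ) (γ : Type) [Fintype γ] (mu : Fin m → ℕ) (f : MvPolynomial (Fin m × γ) ℂ) : Prop :=
  f ∈ HW m γ mu ∧ (∀ v, coeff v f ≠ 0 → ∀ j, ∑ i, v (i, j) < S) ∧
    ∀ i, ∑ j, pderiv (i, j) f = 0

lemma Q_zero {S : ℕ} {mu : Fin m → ℕ} : Q m S γ mu 0 :=
  ⟨zero_mem _, fun v hv => absurd (coeff_zero v) hv,
    fun i => Finset.sum_eq_zero fun j _ => map_zero _⟩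

lemma Q_add {S : ℕ} {mu : Fin m → ℕ} {f g : MvPolynomial (Fin m × γ) ℂ} (hf : Q m S γ mu f)
    (hg : Q m S γ mu g) : Q m S γ mu (f + g) := by
  refine ⟨add_mem hf.1 hg.1, fun v hv => ?_, fun i => ?_⟩
  · rw [coeff_add] at hv
    by_cases h : coeff v f = 0
    · rw [h, zero_add] at hv
      exact hg.2.1 v hv
    · exact hf.2.1 v h
  · rw [Finset.sum_congr rfl fun j _ => map_add (pderiv (i, j)) f g, Finset.sum_add_distrib,
      hf.2.2 i, hg.2.2 i, add_zero]

lemma Q_sum {S : ℕ} {mu : Fin m → ℕ} {κ : Type} (s : Finset κ)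
    (f : κ → MvPolynomial (Fin m × γ) ℂ) (hf : ∀ x ∈ s, Q m S γ mu (f x)) :
    Q m S γ mu (∑ x ∈ s, f x) := by
  classical
  induction s using Finset.induction_on with
  | empty => exact Q_zero
  | insert a s ha ih =>
    rw [Finset.sum_insert ha]
    exact Q_add (hf a (Finset.mem_insert_self _ _))
      (ih fun x hx => hf x (Finset.mem_insert_of_mem hx))

/-- a permutation of the columns -/
lemma Q_rc {S : ℕ} {mu : Fin m → ℕ} (e : Equiv.Perm γ) {f : MvPolynomial (Fin m × γ) ℂ}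
    (hf : Q m S γ mu f) : Q m S γ mu (rc m e f) := by
  refine ⟨(rc_mem_HW e.injective).2 hf.1, fun v hv j => ?_, fun i => ?_⟩
  · obtain ⟨u, hu, h4, _⟩ := coeff_rc e.injective hv
    obtain ⟨j, rfl⟩ := e.surjective j
    rw [Finset.sum_congr rfl fun i _ => h4 i j]
    exact hf.2.1 u hu j
  · rw [← Equiv.sum_comp e, Finset.sum_congr rfl fun j _ => pderiv_rc e.injective i j f,
      ← map_sum, hf.2.2 i, map_zero]

/-- products in disjoint columns -/
lemma Q_mul (e : α ⊕ β ≃ γ) {S : ℕ} {mu mu' : Fin m → ℕ} {f : MvPolynomial (Fin m × α) ℂ}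
    {g : MvPolynomial (Fin m × β) ℂ} (hf : Q m S α mu f) (hg : Q m S β mu' g) :
    Q m S γ (fun i => mu i + mu' i)
      (rc m (fun a => e (Sum.inl a)) f * rc m (fun b => e (Sum.inr b)) g) := by
  classical
  have hl : Function.Injective fun a => e (Sum.inl a) := e.injective.comp Sum.inl_injective
  have hr : Function.Injective fun b => e (Sum.inr b) := e.injective.comp Sum.inr_injective
  have hlr : ∀ b, e (Sum.inr b) ∉ Set.range fun a => e (Sum.inl a) := by
    rintro b ⟨a, ha⟩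
    exact absurd (e.injective ha) (by simp)
  have hrl : ∀ a, e (Sum.inl a) ∉ Set.range fun b => e (Sum.inr b) := by
    rintro a ⟨b, hb⟩
    exact absurd (e.injective hb) (by simp)
  obtain ⟨F, hF⟩ : ∃ F, F = rc m (fun a => e (Sum.inl a)) f := ⟨_, rfl⟩
  obtain ⟨G, hG⟩ : ∃ G, G = rc m (fun b => e (Sum.inr b)) g := ⟨_, rfl⟩
  have hF1 : F ∈ HW m γ mu := by
    rw [hF]
    exact (rc_mem_HW hl).2 hf.1
  have hG1 : G ∈ HW m γ mu' := by
    rw [hG]
    exact (rc_mem_HW hr).2 hg.1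
  have hF2 : ∀ i, ∑ j, pderiv (i, j) F = 0 := by
    intro i
    rw [← Equiv.sum_comp e, Fintype.sum_sum_type, hF]
    rw [Finset.sum_congr rfl fun a _ => pderiv_rc hl i a f, ← map_sum, hf.2.2 i, map_zero,
      zero_add]
    exact Finset.sum_eq_zero fun b _ => pderiv_rc_out i (hlr b) f
  have hG2 : ∀ i, ∑ j, pderiv (i, j) G = 0 := by
    intro i
    rw [← Equiv.sum_comp e, Fintype.sum_sum_type, hG]
    rw [Finset.sum_congr rfl fun b _ => pderiv_rc hr i b g, ← map_sum, hg.2.2 i, map_zero,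
      add_zero]
    exact Finset.sum_eq_zero fun a _ => pderiv_rc_out i (hrl a) g
  rw [← hF, ← hG]
  have hsplit : ∀ v, coeff v (F * G) ≠ 0 → ∃ a b, a + b = v ∧ coeff a F ≠ 0 ∧ coeff b G ≠ 0 := by
    intro v hv
    rw [coeff_mul] at hv
    obtain ⟨⟨a, b⟩, hab, h⟩ := Finset.exists_ne_zero_of_sum_ne_zero hv
    exact ⟨a, b, Finset.HasAntidiagonal.mem_antidiagonal.1 hab, left_ne_zero_of_mul h, right_ne_zero_of_mul h⟩
  refine ⟨?_, ?_, ?_⟩
  · rw [mem_HW] at hF1 hG1 ⊢
    refine ⟨fun v hv i => ?_, fun s i hsi => ?_⟩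
    · obtain ⟨a, b, rfl, ha, hb⟩ := hsplit v hv
      rw [← hF1.1 a ha i, ← hG1.1 b hb i, ← Finset.sum_add_distrib]
      rfl
    · have h1 := hF1.2 s i hsi
      have h2 := hG1.2 s i hsi
      rw [rowOp_apply] at h1 h2 ⊢
      have h3 : ∀ j, X (s, j) * pderiv (i, j) (F * G) =
          G * (X (s, j) * pderiv (i, j) F) + F * (X (s, j) * pderiv (i, j) G) := by
        intro j
        rw [Derivation.leibniz, smul_eq_mul, smul_eq_mul]
        ring
      rw [Finset.sum_congr rfl fun j _ => h3 j, Finset.sum_add_distrib, ← Finset.mul_sum,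
        ← Finset.mul_sum, h1, h2, mul_zero, mul_zero, add_zero]
  · intro v hv j
    obtain ⟨a, b, rfl, ha, hb⟩ := hsplit v hv
    rw [hF] at ha
    rw [hG] at hb
    obtain ⟨u, hu, h4, h5⟩ := coeff_rc hl ha
    obtain ⟨w, hw, h6, h7⟩ := coeff_rc hr hb
    obtain ⟨x, rfl⟩ := e.surjective j
    have h8 : ∑ i, (a + b) (i, e x) = ∑ i, a (i, e x) + ∑ i, b (i, e x) := by
      rw [← Finset.sum_add_distrib]
      rfl
    rw [h8]
    rcases x with x | x
    · have h9 : ∑ i, b (i, e (Sum.inl x)) = 0 :=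
        Finset.sum_eq_zero fun i _ => h7 i _ (hrl x)
      rw [h9, add_zero, Finset.sum_congr rfl fun i _ => h4 i x]
      exact hf.2.1 u hu x
    · have h9 : ∑ i, a (i, e (Sum.inr x)) = 0 :=
        Finset.sum_eq_zero fun i _ => h5 i _ (hlr x)
      rw [h9, zero_add, Finset.sum_congr rfl fun i _ => h6 i x]
      exact hg.2.1 w hw x
  · intro i
    have h3 : ∀ j, pderiv (i, j) (F * G) = G * pderiv (i, j) F + F * pderiv (i, j) G := by
      intro j
      rw [Derivation.leibniz, smul_eq_mul, smul_eq_mul]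
      ring
    rw [Finset.sum_congr rfl fun j _ => h3 j, Finset.sum_add_distrib, ← Finset.mul_sum,
      ← Finset.mul_sum, hF2, hG2, mul_zero, mul_zero, add_zero]

/-- The columns of a state without large letters. -/
abbrev Col (n : ℕ) : Type := Fin 0 ⊕ Fin n

/-- membership in `PKT` without large columns -/
lemma mem_PKT0 {S n : ℕ} {mu : Fin m → ℕ} {f : MvPolynomial (Fin m × Col n) ℂ} :
    f ∈ PKT m S (Fin 0) (fun _ => 0) n mu ↔
      Q m S (Col n) mu f ∧ ∀ e : Equiv.Perm (Col n), rc m e f = f := by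
  rw [mem_PKT]
  constructor
  · rintro ⟨h1, h2, h3, h4⟩
    refine ⟨⟨h1, fun v hv j => ?_, fun i => ?_⟩, fun e => ?_⟩
    · rcases j with j | j
      · exact j.elim0
      · exact (h2 v hv).2 j
    · rw [Fintype.sum_sum_type, h4 i, add_zero]
      exact Finset.sum_eq_zero fun j _ => j.elim0
    · let s : Equiv.Perm (Fin n) :=
        ((Equiv.emptySum (Fin 0) (Fin n)).symm.trans e).trans (Equiv.emptySum (Fin 0) (Fin n))
      have h5 := h3 1 s fun j => rfl
      have h6 : (fun p : Fin m × (Fin 0 ⊕ Fin n) => (p.1, e p.2)) =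
          fun p : Fin m × (Fin 0 ⊕ Fin n) => (p.1, Sum.map (1 : Equiv.Perm (Fin 0)) s p.2) := by
        funext p
        obtain ⟨i, j⟩ := p
        rcases j with j | j
        · exact j.elim0
        · have h7 : Sum.inr (s j) = e (Sum.inr j) :=
            (Equiv.emptySum (Fin 0) (Fin n)).symm_apply_apply (e (Sum.inr j))
          simp only [Sum.map_inr, h7]
      rw [rc]
      change rename (fun p : Fin m × (Fin 0 ⊕ Fin n) => (p.1, e p.2)) f = f
      rw [h6]
      exact h5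
  · rintro ⟨⟨h1, h2, h3⟩, h4⟩
    refine ⟨h1, fun v hv => ⟨fun j => j.elim0, fun j => h2 v hv _⟩, fun e s _ => ?_, fun i => ?_⟩
    · exact h4 (Equiv.sumCongr e s)
    · have h5 := h3 i
      rw [Fintype.sum_sum_type, Finset.sum_eq_zero (fun j _ => j.elim0), zero_add] at h5
      exact h5

/-- the symmetrised product in disjoint columns -/
noncomputable def Ph [DecidableEq γ] (e : α ⊕ β ≃ γ) (g : MvPolynomial (Fin m × β) ℂ) :
    MvPolynomial (Fin m × α) ℂ →ₗ[ℂ] MvPolynomial (Fin m × γ) ℂ :=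
  ∑ π : Equiv.Perm γ, (rc m π).toLinearMap ∘ₗ
    (LinearMap.mulRight ℂ (rc m (fun b => e (Sum.inr b)) g)) ∘ₗ
      (rc m (fun a => e (Sum.inl a))).toLinearMap

lemma Ph_apply [DecidableEq γ] (e : α ⊕ β ≃ γ) (g : MvPolynomial (Fin m × β) ℂ)
    (f : MvPolynomial (Fin m × α) ℂ) : Ph e g f = ∑ π : Equiv.Perm γ,
      rc m π (rc m (fun a => e (Sum.inl a)) f * rc m (fun b => e (Sum.inr b)) g) := by
  rw [Ph, LinearMap.sum_apply]
  rfl

lemma hat_Ph [DecidableEq γ] (e : α ⊕ β ≃ γ) (g : MvPolynomial (Fin m × β) ℂ)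
    (f : MvPolynomial (Fin m × α) ℂ) : hat m γ (Ph e g f) =
      (Fintype.card (Equiv.Perm γ) : MvPolynomial (Fin m → ℕ) ℂ) * (hat m α f * hat m β g) := by
  rw [Ph_apply, map_sum, Finset.sum_congr rfl fun π _ => (hat_rc π _).trans (hat_mul e f g),
    Finset.sum_const, nsmul_eq_mul, Finset.card_univ]

lemma rc_Ph [DecidableEq γ] (e : α ⊕ β ≃ γ) (g : MvPolynomial (Fin m × β) ℂ)
    (f : MvPolynomial (Fin m × α) ℂ) (π : Equiv.Perm γ) : rc m π (Ph e g f) = Ph e g f := by
  rw [Ph_apply, map_sum]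
  have h : ∀ π' : Equiv.Perm γ, rc m π (rc m π'
      (rc m (fun a => e (Sum.inl a)) f * rc m (fun b => e (Sum.inr b)) g)) =
      rc m (π * π' : Equiv.Perm γ)
        (rc m (fun a => e (Sum.inl a)) f * rc m (fun b => e (Sum.inr b)) g) := by
    intro π'
    rw [rc, rc, rename_rename]
    rfl
  rw [Finset.sum_congr rfl fun π' _ => h π']
  exact Equiv.sum_comp (Equiv.mulLeft π) fun π' : Equiv.Perm γ => rc m π'
    (rc m (fun a => e (Sum.inl a)) f * rc m (fun b => e (Sum.inr b)) g)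

/-- the columns -/
def eC (t s : ℕ) : Col (t + 1) ⊕ Col s ≃ Col (t + s + 1) :=
  (Equiv.sumCongr (Equiv.emptySum (Fin 0) (Fin (t + 1))) (Equiv.emptySum (Fin 0) (Fin s))).trans
    ((finSumFinEquiv.trans (finCongr (by omega))).trans
      (Equiv.emptySum (Fin 0) (Fin (t + s + 1))).symm)

lemma full_iff {n : ℕ} (v : Fin m × Col n →₀ ℕ) :
    (∀ j, colv v j ≠ 0) ↔ ∀ j : Fin n, ∑ i, v (i, Sum.inr j) ≠ 0 := by
  constructor
  · intro h j h0
    apply h (Sum.inr j)
    funext i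
    exact Finset.sum_eq_zero_iff.1 h0 i (Finset.mem_univ i)
  · intro h j
    rcases j with j | j
    · exact j.elim0
    · intro h0
      apply h j
      exact Finset.sum_eq_zero fun i _ => congrFun h0 i

/-- **(HO1)** -/
theorem vacStep : VacStep := by
  classical
  intro m S s ω t nu hS hV
  obtain ⟨G, hG, v, hv, hfull⟩ := hV
  have hG0 := mem_PKT0.1 hG
  have hGne : hat m (Col s) G ≠ 0 := hat_ne hG0.2 hv ((full_iff v).2 hfull)
  have : FiniteDimensional ℂ (KerT m S (Fin 0) (fun _ => 0) t nu) :=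
    Submodule.finiteDimensional_of_le (kerT_le m S (Fin 0) (fun _ => 0) t nu)
  have h1 := rank_le (Ph (m := m) (eC t s) G) (PKT m S (Fin 0) (fun _ => 0) (t + 1) nu)
    (KerT m S (Fin 0) (fun _ => 0) t nu)
    (PKT m S (Fin 0) (fun _ => 0) (t + s + 1) (fun i => nu i + two m ω i))
    (KerT m S (Fin 0) (fun _ => 0) (t + s) (fun i => nu i + two m ω i))
    (kerT_le m S (Fin 0) (fun _ => 0) (t + s) _) (by
      intro f hf
      have hf0 := mem_PKT0.1 hf
      refine ⟨mem_PKT0.2 ⟨?_, rc_Ph (eC t s) G f⟩, fun hker => ⟨hf, fun w hw => ?_⟩⟩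
      · rw [Ph_apply]
        exact Q_sum _ _ fun π _ => Q_rc π (Q_mul (eC t s) hf0.1 hG0.1)
      · by_contra hno
        push Not at hno
        have h2 : hat m (Col (t + 1)) f ≠ 0 := hat_ne hf0.2 hw ((full_iff w).2 hno)
        have h3 : hat m (Col (t + s + 1)) (Ph (eC t s) G f) ≠ 0 := by
          rw [hat_Ph]
          refine mul_ne_zero ?_ (mul_ne_zero h2 hGne)
          exact_mod_cast Fintype.card_ne_zero
        obtain ⟨u, hu, hu2⟩ := exists_full h3
        obtain ⟨j, hj⟩ := hker.2 u hu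
        exact (full_iff u).1 hu2 j hj)
  have h0 : Finset.univ.val.map (fun _ : Fin 0 => 0) = (0 : Multiset ℕ) := rfl
  have hN : ∀ (n : ℕ) (mu : Fin m → ℕ),
      Module.finrank ℂ (PKT m S (Fin 0) (fun _ => 0) n mu) = NT m S mu 0 n := by
    intro n mu
    rw [transT m S (Fin 0) (fun _ => 0) n mu, h0]
  rw [kerStmt m S (Fin 0) (fun _ => 0) t nu hS, kerStmt m S (Fin 0) (fun _ => 0) (t + s) _ hS,
    hN, hN, hN, hN, Nat.add_right_comm t s 1] at h1
  exact h1

end Vale.Agent.P181.HO.H694
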